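import Vale.Agent.P042.Power.Lex
import Vale.Agent.P042.Power.Certificate

/-!
For primes `p` with `p - 1 ∣ k` every `k`-th power is `0` or `1` modulo `p`, so `0, …, p - 2`,
ranked by themselves, form a graded set.  Combining many such primes makes the loss in the
exponent `o(1 / k)`.
-/

open Finset

namespace Vale.Agent.P042.Power.High

variable {k : ℕ}

lemma graded_range {p : ℕ} (hp : p.Prime) (hk : 0 < k) (hd : p - 1 ∣ k) :
    Graded k p (range (p - 1)) id := by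
  refine ⟨fun a ha => by have := mem_range.1 ha; omega, fun a ha b hb hab ⟨n, hn⟩ => ?_⟩
  rw [mem_range] at ha hb
  have hx : n ^ k % p = 0 ∨ n ^ k % p = 1 := by
    by_cases h : p ∣ n
    · exact Or.inl (Nat.mod_eq_zero_of_dvd (h.trans (dvd_pow_self n hk.ne')))
    · right
      obtain ⟨t, rfl⟩ := hd
      have := Fact.mk hp
      have h0 : ((n : ℕ) : ZMod p) ≠ 0 := by
        rwa [Ne, ZMod.natCast_eq_zero_iff]
      have h1 : ((n ^ ((p - 1) * t) : ℕ) : ZMod p) = ((1 : ℕ) : ZMod p) := by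
        push_cast
        rw [pow_mul, ZMod.pow_card_sub_one_eq_one h0, one_pow]
      rw [ZMod.natCast_eq_natCast_iff'] at h1
      rw [h1, Nat.mod_eq_of_lt hp.one_lt]
  have h2 : (a + n ^ k % p) % p = b := by
    rw [Nat.add_mod_mod, hn, Nat.mod_eq_of_lt (by omega)]
  rcases hx with hx | hx
  · rw [hx, add_zero, Nat.mod_eq_of_lt (by omega)] at h2
    exact absurd h2 hab
  · rw [hx, Nat.mod_eq_of_lt (by omega)] at h2
    show a < b
    omega

lemma powGraded_prime {p : ℕ} (hp : p.Prime) (hk : 0 < k) (hd : p - 1 ∣ k) :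
    PowGraded k (p ^ k) ((p - 1) * p ^ (k - 1)) (p - 1) := by
  have hE := graded_range hp hk hd
  refine ⟨p, hp.pos, rfl, fun n hn => rootFree_prime hp n ((dvd_pow_self p hk.ne').trans hn),
    _, _, graded_fibres hk hp.pos (rootFree_prime hp) hE, ?_, ?_⟩
  · rw [card_image_of_injOn, card_product, card_range, card_range]
    rintro ⟨a, y⟩ hp' ⟨b, z⟩ hq he
    simp only [coe_product, Set.mem_prod, mem_coe] at hp' hq
    obtain ⟨rfl, rfl⟩ := digits_unique (hE.1 a hp'.1) (hE.1 b hq.1) he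
    rfl
  · simp only [mem_image, mem_product]
    rintro _ ⟨⟨a, y⟩, ⟨ha, -⟩, rfl⟩
    rw [Nat.add_mul_mod_self_left, Nat.mod_eq_of_lt (hE.1 a ha)]
    exact mem_range.1 ha

lemma powGraded_prod (hk : 0 < k) (s : Finset ℕ) :
    s.Nonempty → (∀ p ∈ s, p.Prime ∧ p - 1 ∣ k) →
    PowGraded k ((∏ p ∈ s, p) ^ k) ((∏ p ∈ s, (p - 1)) * (∏ p ∈ s, p) ^ (k - 1))
      (∑ p ∈ s, (p - 1)) := by
  intro hs
  induction hs using Finset.Nonempty.cons_induction with
  | singleton p =>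
    intro h
    simpa using powGraded_prime (h p (by simp)).1 hk (h p (by simp)).2
  | cons p t hpt hne ih =>
    intro h
    have hp := h p (mem_cons_self p t)
    have ht := ih fun q hq => h q (mem_cons_of_mem hq)
    have hco : (p ^ k).Coprime ((∏ q ∈ t, q) ^ k) := by
      refine Nat.Coprime.pow k k (Nat.Coprime.prod_right fun q hq => ?_)
      exact (Nat.coprime_primes hp.1 (h q (mem_cons_of_mem hq)).1).2 fun e => hpt (e ▸ hq)
    have := (powGraded_prime hp.1 hk hp.2).mul hk ht hco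
    rw [prod_cons, prod_cons, sum_cons, mul_pow, mul_pow]
    convert this using 1
    ring

/-- Primes in dyadic blocks. -/
lemma exists_primes (D : ℕ) (hD : 0 < D) :
    ∃ s : Finset ℕ, s.Nonempty ∧ (∀ p ∈ s, p.Prime) ∧
      ((∑ p ∈ s, (p - 1)) * ∏ p ∈ s, p) ^ D ≤ (∏ p ∈ s, p) * (∏ p ∈ s, (p - 1)) ^ D := by
  set a := 8 * D with ha
  set r := 2 * D with hr
  have hB : ∀ i : ℕ, ∃ p, p.Prime ∧ 2 ^ (a + i) < p ∧ p ≤ 2 ^ (a + i + 1) := by
    intro i
    obtain ⟨p, hp, h1, h2⟩ := Nat.exists_prime_lt_and_le_two_mul (2 ^ (a + i)) (by positivity)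
    exact ⟨p, hp, h1, by rw [pow_succ']; exact h2⟩
  choose f hf hlo hhi using hB
  have hmono : StrictMono f := strictMono_nat_of_lt_succ fun i =>
    (hhi i).trans_lt (by simpa [add_assoc] using hlo (i + 1))
  have hinj : Set.InjOn f (range r : Finset ℕ) := hmono.injective.injOn
  refine ⟨(range r).image f, ?_, ?_, ?_⟩
  · exact (nonempty_range_iff.2 (by omega)).image f
  · simp only [mem_image, mem_range]
    rintro _ ⟨i, -, rfl⟩
    exact hf i
  rw [sum_image hinj, prod_image hinj, prod_image hinj]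
  have h2g : ∏ i ∈ range r, f i ≤ 2 ^ r * ∏ i ∈ range r, (f i - 1) := by
    calc ∏ i ∈ range r, f i ≤ ∏ i ∈ range r, 2 * (f i - 1) :=
          prod_le_prod' fun i _ => by have := (hf i).two_le; omega
      _ = 2 ^ r * ∏ i ∈ range r, (f i - 1) := by rw [prod_mul_distrib, prod_const, card_range]
  have hsum : ∑ i ∈ range r, (f i - 1) ≤ 2 ^ (a + 2 * r) := by
    calc ∑ i ∈ range r, (f i - 1) ≤ ∑ _i ∈ range r, 2 ^ (a + r) :=
          sum_le_sum fun i hi => (Nat.sub_le _ _).trans ((hhi i).trans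
            (Nat.pow_le_pow_right two_pos (by have := mem_range.1 hi; omega)))
      _ = r * 2 ^ (a + r) := by rw [sum_const, card_range, smul_eq_mul]
      _ ≤ 2 ^ r * 2 ^ (a + r) := Nat.mul_le_mul_right _ Nat.lt_two_pow_self.le
      _ = 2 ^ (a + 2 * r) := by ring
  have hprod : (2 ^ (a + 3 * r)) ^ D ≤ ∏ i ∈ range r, f i := by
    calc (2 ^ (a + 3 * r)) ^ D ≤ (2 ^ a) ^ r := by
          rw [← pow_mul, ← pow_mul]
          exact Nat.pow_le_pow_right two_pos (by rw [ha, hr]; nlinarith)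
      _ = ∏ _i ∈ range r, 2 ^ a := by rw [prod_const, card_range]
      _ ≤ ∏ i ∈ range r, f i :=
          prod_le_prod' fun i _ => ((Nat.pow_le_pow_right two_pos (by omega)).trans (hlo i).le)
  calc ((∑ i ∈ range r, (f i - 1)) * ∏ i ∈ range r, f i) ^ D
      ≤ (2 ^ (a + 2 * r) * (2 ^ r * ∏ i ∈ range r, (f i - 1))) ^ D :=
        Nat.pow_le_pow_left (Nat.mul_le_mul hsum h2g) D
    _ = (2 ^ (a + 3 * r)) ^ D * (∏ i ∈ range r, (f i - 1)) ^ D := by
        rw [← mul_pow]; ring_nf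
    _ ≤ _ := Nat.mul_le_mul_right _ hprod

theorem exists_degree (D : ℕ) (hD : 0 < D) :
    ∃ k₀ : ℕ, 0 < k₀ ∧ ∀ k : ℕ, 0 < k → k₀ ∣ k →
      ∃ c : ℝ, 0 < c ∧ ∀ N : ℕ, 1 ≤ N → ∃ A : Finset ℕ, A ⊆ Icc 1 N ∧ PowFreeDiff k A ∧
        c * (N : ℝ) ^ (((D * k - 1 : ℕ) : ℝ) / (D * k : ℕ)) ≤ A.card := by
  obtain ⟨s, hs, hp, hb⟩ := exists_primes D hD
  set g := ∏ p ∈ s, p with hg
  set φ := ∏ p ∈ s, (p - 1) with hφ
  set H := ∑ p ∈ s, (p - 1) with hH
  refine ⟨φ, prod_pos fun p h => by have := (hp p h).two_le; omega, fun k hk hd => ?_⟩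
  have hP := powGraded_prod hk s hs
    fun p h => ⟨hp p h, (dvd_prod_of_mem (fun q => q - 1) h).trans hd⟩
  rw [← hg, ← hφ, ← hH] at hP
  have hg1 : 1 < g := by
    obtain ⟨p, h⟩ := hs
    exact (hp p h).one_lt.trans_le
      (Nat.le_of_dvd (prod_pos fun q hq => (hp q hq).pos) (dvd_prod_of_mem _ h))
  have hH0 : 0 < H := sum_pos (fun p h => by have := (hp p h).two_le; omega) hs
  refine hP.exists_subsets (Nat.one_lt_pow hk.ne' hg1) hH0 (Nat.mul_pos hD hk) ?_
  refine Nat.le_of_mul_le_mul_left ?_ (Nat.pow_pos (n := k) (show 0 < g by omega))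
  have e : D * k - 1 + 1 = D * k := by
    have := Nat.mul_pos hD hk
    omega
  have ek : k - 1 + 1 = k := by omega
  calc g ^ k * (g ^ k * H) ^ (D * k - 1)
      ≤ g ^ k * (g ^ k * H) ^ (D * k - 1) * H := Nat.le_mul_of_pos_right _ hH0
    _ = (g ^ k * H) ^ (D * k) := by
        conv_rhs => rw [← e, pow_succ]
        ring
    _ = (g ^ (k - 1)) ^ (D * k) * ((H * g) ^ D) ^ k := by
        conv_lhs => rw [← ek, pow_succ]
        rw [mul_assoc, mul_pow, mul_comm g H, ← pow_mul (H * g)]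
        simp only [ek]
    _ ≤ (g ^ (k - 1)) ^ (D * k) * (g * φ ^ D) ^ k :=
        Nat.mul_le_mul_left _ (Nat.pow_le_pow_left hb k)
    _ = g ^ k * (φ * g ^ (k - 1)) ^ (D * k) := by
        rw [mul_pow g, mul_pow φ, ← pow_mul φ]
        ring

end Vale.Agent.P042.Power.High
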