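import Mathlib

/-!
Graded sets of residues modulo perfect `k`-th powers, their lexicographic powers and their products.

A graded set modulo `M` is a finite set of residues with a rank that strictly increases whenever
the difference of two elements is a `k`-th power modulo `M`.  For `M = N ^ k` two graded sets
compose lexicographically (ranks multiply), and for coprime moduli they combine directly (ranks
add).  Putting the residue classes into consecutive blocks in decreasing order of rank gives sets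
of integers without `k`-th power differences.
-/

open Finset

namespace Vale.Agent.P042.Power

variable {k : ℕ}

/-- No root of zero modulo `m` except zero. -/
def RootFree (k m : ℕ) : Prop := ∀ n : ℕ, m ∣ n ^ k → m ∣ n

lemma RootFree.mul {m n : ℕ} (hm : RootFree k m) (hn : RootFree k n) (h : m.Coprime n) :
    RootFree k (m * n) := fun x hx =>
  h.mul_dvd_of_dvd_of_dvd (hm x ((Dvd.intro n rfl).trans hx))
    (hn x ((Dvd.intro_left m rfl).trans hx))

/-- The rank increases along square differences modulo `m`. -/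
def Graded (k m : ℕ) (S : Finset ℕ) (r : ℕ → ℕ) : Prop :=
  (∀ a ∈ S, a < m) ∧ ∀ a ∈ S, ∀ b ∈ S, a ≠ b → (∃ n : ℕ, a + n ^ k ≡ b [MOD m]) → r a < r b

/-- A graded set with at least `T` elements and ranks below `H` modulo the square `M`. -/
def PowGraded (k M T H : ℕ) : Prop :=
  ∃ N : ℕ, 0 < N ∧ M = N ^ k ∧ (∀ n : ℕ, M ∣ n ^ k → N ∣ n) ∧
    ∃ (S : Finset ℕ) (r : ℕ → ℕ), Graded k M S r ∧ T ≤ S.card ∧ ∀ a ∈ S, r a < H

lemma digits_unique {m a y a' y' : ℕ} (ha : a < m) (ha' : a' < m)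
    (he : a + m * y = a' + m * y') : a = a' ∧ y = y' := by
  have e1 : a = a' := by
    have := congrArg (· % m) he
    simpa [Nat.add_mul_mod_self_left, Nat.mod_eq_of_lt ha, Nat.mod_eq_of_lt ha'] using this
  subst e1
  exact ⟨rfl, Nat.eq_of_mul_eq_mul_left (by omega) (Nat.add_left_cancel he)⟩

/-- A graded set modulo the square `M` with at least `n i` elements of each rank `i < h`. -/
def Levels (k M h : ℕ) (n : ℕ → ℕ) : Prop :=
  ∃ N : ℕ, 0 < N ∧ M = N ^ k ∧ (∀ x : ℕ, M ∣ x ^ k → N ∣ x) ∧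
    ∃ (S : Finset ℕ) (r : ℕ → ℕ), Graded k M S r ∧ (∀ a ∈ S, r a < h) ∧
      ∀ i < h, n i ≤ (S.filter fun a => r a = i).card

lemma PowGraded.one : PowGraded k 1 1 1 := by
  refine ⟨1, one_pos, (one_pow k).symm, fun n _ => one_dvd n, {0}, fun _ => 0, ⟨?_, ?_⟩, by simp, by simp⟩
  · simp
  · intro a ha b hb hab
    simp_all

lemma graded_fibres {g : ℕ} (hk : 0 < k) (hg : 0 < g) (hR : RootFree k g) {E : Finset ℕ}
    {r : ℕ → ℕ} (hE : Graded k g E r) :
    Graded k (g ^ k) ((E ×ˢ range (g ^ (k - 1))).image (fun p => p.1 + g * p.2))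
      (fun x => r (x % g)) := by
  obtain ⟨j, rfl⟩ : ∃ j, k = j + 1 := ⟨k - 1, by omega⟩
  rw [pow_succ' g j, Nat.add_sub_cancel]
  refine ⟨?_, ?_⟩
  · simp only [mem_image, mem_product, mem_range]
    rintro _ ⟨⟨a, y⟩, ⟨ha, hy⟩, rfl⟩
    have := hE.1 a ha
    simp only
    nlinarith
  · simp only [mem_image, mem_product, mem_range]
    rintro _ ⟨⟨a, y⟩, ⟨ha, hy⟩, rfl⟩ _ ⟨⟨b, z⟩, ⟨hb, hz⟩, rfl⟩ hne ⟨n, hn⟩
    simp only [Nat.add_mul_mod_self_left, Nat.mod_eq_of_lt (hE.1 a ha),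
      Nat.mod_eq_of_lt (hE.1 b hb)]
    simp only at hne hn ha hb
    by_cases hab : a = b
    · subst hab
      exfalso
      have h1 : g * y + n ^ (j + 1) ≡ g * z [MOD g * g ^ j] := by
        rw [add_assoc] at hn
        exact Nat.ModEq.add_left_cancel' a hn
      have h2 : g ∣ n := by
        refine hR n ?_
        have h3 := h1.of_mul_right (g ^ j)
        rw [Nat.ModEq, Nat.mul_add_mod, Nat.mul_mod_right] at h3
        exact Nat.dvd_of_mod_eq_zero h3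
      obtain ⟨t, rfl⟩ := h2
      have h4 : g * (y + g ^ j * t ^ (j + 1)) ≡ g * z [MOD g * g ^ j] := by
        rw [show g * (y + g ^ j * t ^ (j + 1)) = g * y + (g * t) ^ (j + 1) by ring]
        exact h1
      have h5 := Nat.ModEq.mul_left_cancel' hg.ne' h4
      rw [Nat.ModEq, Nat.add_mul_mod_self_left, Nat.mod_eq_of_lt hy, Nat.mod_eq_of_lt hz] at h5
      simp only at h5
      exact hne (by rw [h5])
    · refine hE.2 a ha b hb hab ⟨n, ?_⟩
      have h3 := hn.of_mul_right (g ^ j)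
      have e : a + g * y + n ^ (j + 1) = a + n ^ (j + 1) + g * y := by ring
      rw [Nat.ModEq, e, Nat.add_mul_mod_self_left, Nat.add_mul_mod_self_left] at h3
      exact h3

lemma PowGraded.lex {M₁ T₁ H₁ M₂ T₂ H₂ : ℕ} (h₁ : PowGraded k M₁ T₁ H₁) (h₂ : PowGraded k M₂ T₂ H₂) :
    PowGraded k (M₁ * M₂) (T₁ * T₂) (H₁ * H₂) := by
  obtain ⟨N₁, hN₁, rfl, hR₁, S₁, r₁, hS₁, hT₁, hH₁⟩ := h₁
  obtain ⟨N₂, hN₂, rfl, hR₂, S₂, r₂, hS₂, hT₂, hH₂⟩ := h₂
  set M := N₁ ^ k with hM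
  have hM0 : 0 < M := Nat.pow_pos hN₁
  refine ⟨N₁ * N₂, Nat.mul_pos hN₁ hN₂, (mul_pow N₁ N₂ k).symm, fun n hn => ?_,
    (S₁ ×ˢ S₂).image (fun p => p.1 + M * p.2), fun x => r₁ (x % M) * H₂ + r₂ (x / M),
    ⟨?_, ?_⟩, ?_, ?_⟩
  · obtain ⟨t, rfl⟩ := hR₁ n ((Dvd.intro _ rfl).trans hn)
    refine Nat.mul_dvd_mul_left N₁ (hR₂ t ?_)
    rw [mul_pow, ← hM] at hn
    exact (Nat.mul_dvd_mul_iff_left hM0).1 hn
  · simp only [mem_image, mem_product]
    rintro _ ⟨⟨a, z⟩, ⟨ha, hz⟩, rfl⟩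
    have := hS₁.1 a ha
    have := hS₂.1 z hz
    simp only
    nlinarith
  · simp only [mem_image, mem_product]
    rintro _ ⟨⟨a, y⟩, ⟨ha, hy⟩, rfl⟩ _ ⟨⟨b, z⟩, ⟨hb, hz⟩, rfl⟩ hne ⟨n, hn⟩
    simp only at hne hn ha hb hy hz
    simp only [Nat.add_mul_mod_self_left, Nat.mod_eq_of_lt (hS₁.1 a ha),
      Nat.mod_eq_of_lt (hS₁.1 b hb), Nat.add_mul_div_left _ _ hM0,
      Nat.div_eq_of_lt (hS₁.1 a ha), Nat.div_eq_of_lt (hS₁.1 b hb), zero_add]
    by_cases hab : a = b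
    · subst hab
      have h1 : M * y + n ^ k ≡ M * z [MOD M * (N₂ ^ k)] := by
        rw [add_assoc] at hn
        exact Nat.ModEq.add_left_cancel' a hn
      obtain ⟨t, rfl⟩ : N₁ ∣ n := by
        refine hR₁ n ?_
        have h3 := h1.of_mul_right (N₂ ^ k)
        rw [Nat.ModEq, Nat.mul_add_mod, Nat.mul_mod_right] at h3
        exact Nat.dvd_of_mod_eq_zero h3
      have h4 : y + t ^ k ≡ z [MOD N₂ ^ k] := by
        refine Nat.ModEq.mul_left_cancel' hM0.ne' ?_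
        rw [show M * (y + t ^ k) = M * y + (N₁ * t) ^ k by rw [hM, mul_pow, mul_add]]
        exact h1
      have hyz : y ≠ z := fun e => hne (by rw [e])
      exact Nat.add_lt_add_left (hS₂.2 y hy z hz hyz ⟨t, h4⟩) _
    · have h3 := hn.of_mul_right (N₂ ^ k)
      have e : a + M * y + n ^ k = a + n ^ k + M * y := by ring
      rw [Nat.ModEq, e, Nat.add_mul_mod_self_left, Nat.add_mul_mod_self_left] at h3
      have h5 := hS₁.2 a ha b hb hab ⟨n, h3⟩
      have h6 := hH₂ y hy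
      nlinarith
  · rw [card_image_of_injOn, card_product]
    · exact Nat.mul_le_mul hT₁ hT₂
    · rintro ⟨a, y⟩ hp ⟨b, z⟩ hq he
      simp only [coe_product, Set.mem_prod, mem_coe] at hp hq
      obtain ⟨rfl, rfl⟩ := digits_unique (hS₁.1 a hp.1) (hS₁.1 b hq.1) he
      rfl
  · simp only [mem_image, mem_product]
    rintro _ ⟨⟨a, y⟩, ⟨ha, hy⟩, rfl⟩
    simp only [Nat.add_mul_mod_self_left, Nat.mod_eq_of_lt (hS₁.1 a ha),
      Nat.add_mul_div_left _ _ hM0, Nat.div_eq_of_lt (hS₁.1 a ha), zero_add]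
    have := hH₁ a ha
    have := hH₂ y hy
    nlinarith

lemma PowGraded.pow {M T H : ℕ} (h : PowGraded k M T H) :
    ∀ L : ℕ, PowGraded k (M ^ L) (T ^ L) (H ^ L)
  | 0 => PowGraded.one
  | L + 1 => by
    rw [pow_succ, pow_succ, pow_succ]
    exact (h.pow L).lex h

lemma PowGraded.mul (hk : 0 < k) {M₁ T₁ H₁ M₂ T₂ H₂ : ℕ} (h₁ : PowGraded k M₁ T₁ H₁) (h₂ : PowGraded k M₂ T₂ H₂)
    (h : M₁.Coprime M₂) : PowGraded k (M₁ * M₂) (T₁ * T₂) (H₁ + H₂) := by
  obtain ⟨N₁, hN₁, rfl, hR₁, S, r, ⟨hS1, hS2⟩, hT₁, hH₁⟩ := h₁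
  obtain ⟨N₂, hN₂, rfl, hR₂, S', r', ⟨hS1', hS2'⟩, hT₂, hH₂⟩ := h₂
  have hNN : N₁.Coprime N₂ := (Nat.coprime_pow_right_iff hk _ _).1 ((Nat.coprime_pow_left_iff hk _ _).1 h)
  have hm0 : N₁ ^ k ≠ 0 := (Nat.pow_pos hN₁).ne'
  have hn0 : N₂ ^ k ≠ 0 := (Nat.pow_pos hN₂).ne'
  set f : ℕ × ℕ → ℕ := fun p => (Nat.chineseRemainder h p.1 p.2 : ℕ) with hf
  have hm' : ∀ p ∈ S ×ˢ S', f p % (N₁ ^ k) = p.1 := fun p hp => by
    rw [(Nat.chineseRemainder h p.1 p.2).2.1, Nat.mod_eq_of_lt (hS1 _ (mem_product.1 hp).1)]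
  have hn' : ∀ p ∈ S ×ˢ S', f p % (N₂ ^ k) = p.2 := fun p hp => by
    rw [(Nat.chineseRemainder h p.1 p.2).2.2, Nat.mod_eq_of_lt (hS1' _ (mem_product.1 hp).2)]
  have hinj : Set.InjOn f (S ×ˢ S' : Finset (ℕ × ℕ)) := by
    intro p hp q hq hpq
    rw [Finset.mem_coe] at hp hq
    exact Prod.ext (by rw [← hm' p hp, hpq, hm' q hq]) (by rw [← hn' p hp, hpq, hn' q hq])
  refine ⟨N₁ * N₂, Nat.mul_pos hN₁ hN₂, (mul_pow N₁ N₂ k).symm, fun n hn => hNN.mul_dvd_of_dvd_of_dvd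
      (hR₁ n ((Dvd.intro _ rfl).trans hn)) (hR₂ n ((Dvd.intro_left _ rfl).trans hn)),
    (S ×ˢ S').image f, fun x => r (x % (N₁ ^ k)) + r' (x % (N₂ ^ k)), ⟨?_, ?_⟩, ?_, ?_⟩
  · simp only [mem_image]
    rintro _ ⟨p, -, rfl⟩
    exact Nat.chineseRemainder_lt_mul h p.1 p.2 hm0 hn0
  · simp only [mem_image]
    rintro _ ⟨p, hp, rfl⟩ _ ⟨q, hq, rfl⟩ hne ⟨x, hx⟩
    simp only [hm' p hp, hn' p hp, hm' q hq, hn' q hq]
    have e1 : p.1 + x ^ k ≡ q.1 [MOD N₁ ^ k] :=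
      (((Nat.chineseRemainder h p.1 p.2).2.1.add_right (x ^ k)).symm.trans
        ((Nat.ModEq.of_mul_right _ hx).trans (Nat.chineseRemainder h q.1 q.2).2.1))
    have e2 : p.2 + x ^ k ≡ q.2 [MOD N₂ ^ k] :=
      (((Nat.chineseRemainder h p.1 p.2).2.2.add_right (x ^ k)).symm.trans
        ((Nat.ModEq.of_mul_left _ hx).trans (Nat.chineseRemainder h q.1 q.2).2.2))
    have hp' := mem_product.1 hp
    have hq' := mem_product.1 hq
    by_cases h1 : p.1 = q.1 <;> by_cases h2 : p.2 = q.2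
    · exact absurd (congrArg f (Prod.ext h1 h2)) hne
    · have := hS2' _ hp'.2 _ hq'.2 h2 ⟨x, e2⟩
      rw [h1]; omega
    · have := hS2 _ hp'.1 _ hq'.1 h1 ⟨x, e1⟩
      rw [h2]; omega
    · have := hS2 _ hp'.1 _ hq'.1 h1 ⟨x, e1⟩
      have := hS2' _ hp'.2 _ hq'.2 h2 ⟨x, e2⟩
      omega
  · rw [card_image_of_injOn hinj, card_product]
    exact Nat.mul_le_mul hT₁ hT₂
  · simp only [mem_image]
    rintro _ ⟨p, hp, rfl⟩
    simp only [hm' p hp, hn' p hp]
    have := hH₁ _ (mem_product.1 hp).1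
    have := hH₂ _ (mem_product.1 hp).2
    omega

/-- No difference of two elements is a nonzero square. -/
def PowFreeDiff (k : ℕ) (A : Finset ℕ) : Prop := ∀ a ∈ A, ∀ b ∈ A, ∀ n : ℕ, 0 < n → a ≠ b + n ^ k

/-- Put the residue classes into blocks in decreasing order of rank, so that a square difference
would have to increase both the rank and the position. -/
lemma PowGraded.blocks {M T H : ℕ} (h : PowGraded k M T H) :
    ∀ L : ℕ, ∃ A : Finset ℕ, (∀ a ∈ A, a < (M * H) ^ L) ∧ T ^ L ≤ A.card ∧ PowFreeDiff k A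
  | 0 => ⟨{0}, by simp, by simp, by
      intro a ha b hb n hn
      simp only [mem_singleton] at ha hb
      subst ha hb
      have : 0 < n ^ k := Nat.pow_pos hn
      omega⟩
  | L + 1 => by
    obtain ⟨A, hA, hcard, hsq⟩ := h.blocks L
    obtain ⟨N, hN, rfl, hR, S, r, ⟨hS1, hS2⟩, hT, hr⟩ := h
    set M := N ^ k with hM
    set W := (M * H) ^ L with hW
    have hM0 : 0 < M := Nat.pow_pos hN
    refine ⟨(S ×ˢ A).image (fun p => p.1 + M * ((H - 1 - r p.1) * W + p.2)), ?_, ?_, ?_⟩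
    · simp only [mem_image, mem_product]
      rintro _ ⟨⟨a, z⟩, ⟨ha, hz⟩, rfl⟩
      have h1 := hS1 a ha
      have h2 := hA z hz
      have h4 : (H - 1 - r a + 1) * W ≤ H * W :=
        Nat.mul_le_mul_right W (by have := hr a ha; omega)
      have h5 : (H - 1 - r a) * W + z + 1 ≤ H * W := by
        rw [add_mul, one_mul] at h4
        omega
      have h6 := Nat.mul_le_mul_left M h5
      rw [pow_succ', ← hW, Nat.mul_assoc M H W]
      rw [mul_add M _ 1, mul_one] at h6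
      simp only
      omega
    · rw [card_image_of_injOn, card_product, pow_succ']
      · exact Nat.mul_le_mul hT hcard
      · rintro ⟨a, y⟩ hp ⟨b, z⟩ hq he
        simp only [coe_product, Set.mem_prod, mem_coe] at hp hq
        obtain ⟨rfl, h2⟩ := digits_unique (hS1 a hp.1) (hS1 b hq.1) he
        obtain rfl := Nat.add_left_cancel h2
        rfl
    · simp only [PowFreeDiff, mem_image, mem_product]
      rintro _ ⟨⟨a, y⟩, ⟨ha, hy⟩, rfl⟩ _ ⟨⟨b, z⟩, ⟨hb, hz⟩, rfl⟩ n hn he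
      simp only at he ha hb hy hz
      by_cases hab : b = a
      · subst hab
        have h3 : M * y = M * z + n ^ k := by
          rw [mul_add, mul_add] at he
          omega
        have h4 : M ∣ n ^ k := (Nat.dvd_add_right (Dvd.intro z rfl)).1 (h3 ▸ Dvd.intro y rfl)
        obtain ⟨t, rfl⟩ := hR n h4
        have h5 : M * y = M * (z + t ^ k) := by rw [h3, hM, mul_pow, mul_add]
        exact hsq y hy z hz t (Nat.pos_of_mul_pos_left hn) (Nat.eq_of_mul_eq_mul_left hM0 h5)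
      · have hmod : (b + n ^ k) % M = a % M := by
          have h3 := congrArg (· % M) he
          rw [show b + M * ((H - 1 - r b) * W + z) + n ^ k
            = b + n ^ k + M * ((H - 1 - r b) * W + z) by ring] at h3
          simpa [Nat.add_mul_mod_self_left] using h3.symm
        have h5 := hS2 b hb a ha hab ⟨n, hmod⟩
        have h6 := hr a ha
        have h7 : (H - 1 - r a + 1) * W ≤ (H - 1 - r b) * W :=
          Nat.mul_le_mul_right W (by omega)
        rw [add_mul, one_mul] at h7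
        have h8 : (H - 1 - r a) * W + y + 1 ≤ (H - 1 - r b) * W + z := by
          have := hA y hy
          omega
        have h9 := Nat.mul_le_mul_left M h8
        have h10 := hS1 a ha
        rw [mul_add M _ 1, mul_one] at h9
        omega

/-- A graded set modulo `M` with `(M * H) ^ p ≤ T ^ q` gives subsets of `{1, …, N}` without
square differences of size at least `c * N ^ (p / q)`. -/
theorem PowGraded.exists_subsets {M T H : ℕ} (h : PowGraded k M T H) (hM : 1 < M) (hH : 0 < H)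
    {p q : ℕ} (hq : 0 < q) (hpq : (M * H) ^ p ≤ T ^ q) :
    ∃ c : ℝ, 0 < c ∧ ∀ N : ℕ, 1 ≤ N → ∃ A : Finset ℕ, A ⊆ Icc 1 N ∧ PowFreeDiff k A ∧
      c * (N : ℝ) ^ ((p : ℝ) / q) ≤ A.card := by
  set γ : ℝ := (p : ℝ) / q with hγ
  have hγ0 : 0 ≤ γ := by positivity
  have hMH : 1 < M * H := one_lt_mul_of_lt_of_le hM hH
  have hbase : ((M * H : ℕ) : ℝ) ^ γ ≤ (T : ℝ) := by
    have h := Real.rpow_le_rpow (z := (1 : ℝ) / q) (by positivity)
      (show ((M * H : ℕ) : ℝ) ^ p ≤ (T : ℝ) ^ q by exact_mod_cast hpq) (by positivity)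
    rwa [← Real.rpow_natCast, ← Real.rpow_mul (by positivity), ← Real.rpow_natCast _ q,
      ← Real.rpow_mul (by positivity), mul_one_div, mul_one_div, div_self (by positivity),
      Real.rpow_one] at h
  have hM0 : (0 : ℝ) < ((M * H : ℕ) : ℝ) := by exact_mod_cast (show 0 < M * H by omega)
  refine ⟨(((M * H : ℕ) : ℝ) ^ γ)⁻¹, by positivity, fun N hN => ?_⟩
  set L := Nat.log (M * H) N with hL
  obtain ⟨A, hA, hcard, hsq⟩ := h.blocks L
  refine ⟨A.image (· + 1), ?_, ?_, ?_⟩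
  · intro x hx
    simp only [mem_image] at hx
    obtain ⟨a, ha, rfl⟩ := hx
    have := hA a ha
    have := Nat.pow_log_le_self (M * H) (show N ≠ 0 by omega)
    rw [← hL] at this
    simp only [mem_Icc]
    omega
  · simp only [PowFreeDiff, mem_image]
    rintro _ ⟨a, ha, rfl⟩ _ ⟨b, hb, rfl⟩ n hn he
    exact hsq a ha b hb n hn (by omega)
  rw [card_image_of_injective _ (add_left_injective 1)]
  have hN' : (N : ℝ) ≤ ((M * H : ℕ) : ℝ) ^ (L + 1) := by
    exact_mod_cast (Nat.lt_pow_succ_log_self hMH N).le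
  calc (((M * H : ℕ) : ℝ) ^ γ)⁻¹ * (N : ℝ) ^ γ
      ≤ (((M * H : ℕ) : ℝ) ^ γ)⁻¹ * ((((M * H : ℕ) : ℝ) ^ (L + 1)) ^ γ) :=
        mul_le_mul_of_nonneg_left (Real.rpow_le_rpow (by positivity) hN' hγ0) (by positivity)
    _ = (((M * H : ℕ) : ℝ) ^ γ) ^ L := by
        rw [← Real.rpow_pow_comm (by positivity), pow_succ', inv_mul_cancel_left₀ (by positivity)]
    _ ≤ (T : ℝ) ^ L := pow_le_pow_left₀ (by positivity) hbase L
    _ ≤ (A.card : ℝ) := by exact_mod_cast hcard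

/-- A graded set modulo `M` whose density gain at exponent `P / Q` is at least `2 ^ e`. -/
def Gain (k P Q M T H e : ℕ) : Prop := PowGraded k M T H ∧ M ^ P * 2 ^ e ≤ T ^ Q

lemma Gain.mul (hk : 0 < k) {P Q M₁ T₁ H₁ e₁ M₂ T₂ H₂ e₂ : ℕ} (h₁ : Gain k P Q M₁ T₁ H₁ e₁)
    (h₂ : Gain k P Q M₂ T₂ H₂ e₂) (h : M₁.Coprime M₂) :
    Gain k P Q (M₁ * M₂) (T₁ * T₂) (H₁ + H₂) (e₁ + e₂) := by
  refine ⟨h₁.1.mul hk h₂.1 h, ?_⟩
  calc (M₁ * M₂) ^ P * 2 ^ (e₁ + e₂) = (M₁ ^ P * 2 ^ e₁) * (M₂ ^ P * 2 ^ e₂) := by ring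
    _ ≤ T₁ ^ Q * T₂ ^ Q := Nat.mul_le_mul h₁.2 h₂.2
    _ = (T₁ * T₂) ^ Q := (mul_pow _ _ _).symm

/-- Enough gain gives the exponent `P / Q`. -/
theorem Gain.exists_subsets {P Q M T H e : ℕ} (h : Gain k P Q M T H e) (hM : 1 < M) (hH : 0 < H)
    (hQ : 0 < Q) {C : ℕ} (hHC : H ≤ 2 ^ C) (he : P * C ≤ e) :
    ∃ c : ℝ, 0 < c ∧ ∀ N : ℕ, 1 ≤ N → ∃ A : Finset ℕ, A ⊆ Icc 1 N ∧ PowFreeDiff k A ∧
      c * (N : ℝ) ^ ((P : ℝ) / Q) ≤ A.card := by
  refine h.1.exists_subsets hM hH hQ (le_trans ?_ h.2)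
  rw [mul_pow]
  refine Nat.mul_le_mul_left _ ((Nat.pow_le_pow_left hHC P).trans ?_)
  rw [← pow_mul, mul_comm]
  exact Nat.pow_le_pow_right two_pos he

end Vale.Agent.P042.Power
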