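import Vale.Agent.P042.Power.Certificate

/-!
Certificates for differences of `4`-th powers: graded residue sets and their gains.
-/

open Finset

namespace Vale.Agent.P042.Power.Quartic

/-- Residues and ranks modulo 5. -/
def cert0 : List (ℕ × ℕ) :=
    [(0, 3), (2, 0), (3, 1), (4, 2)]

theorem achieved0 : Achieved 4 179 196 3000
    ((([5] : List ℕ).prod ^ 4) ^ 1500) 142189 1 :=
  Levels.achieved_full (levels_of_check (mask := 3) (h := 4) (E := cert0) (by norm_num)
      [5]
      (by norm_num) (by decide) (by decide +kernel)) (by norm_num)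
    (by decide +kernel) (by decide +kernel)

/-- Residues and ranks modulo 13. -/
def cert1 : List (ℕ × ℕ) :=
    [(0, 3), (2, 1), (5, 2), (7, 0), (8, 3), (10, 2), (12, 0)]

theorem achieved1 : Achieved 4 179 196 3000
    ((([13] : List ℕ).prod ^ 4) ^ 1500) 114877 1 :=
  Levels.achieved_full (levels_of_check (mask := 523) (h := 4) (E := cert1) (by norm_num)
      [13]
      (by norm_num) (by decide) (by decide +kernel)) (by norm_num)
    (by decide +kernel) (by decide +kernel)

/-- Residues and ranks modulo 29. -/
def cert2 : List (ℕ × ℕ) :=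
    [(0, 4), (3, 8), (5, 0), (6, 1), (7, 6), (8, 7), (13, 3), (16, 5), (21, 1), (22, 2),
     (23, 9), (24, 10)]

theorem achieved2 : Achieved 4 179 196 3000
    ((([29] : List ℕ).prod ^ 4) ^ 867) 70080 1 :=
  Levels.achieved_full (levels_of_check (mask := 59834499) (h := 11) (E := cert2) (by norm_num)
      [29]
      (by norm_num) (by decide) (by decide +kernel)) (by norm_num)
    (by decide +kernel) (by decide +kernel)

/-- Residues and ranks modulo 51. -/
def cert3 : List (ℕ × ℕ) :=
    [(19, 0), (20, 1), (21, 2), (22, 3), (23, 4), (24, 5), (25, 6), (26, 7), (27, 8), (28, 9),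
     (29, 10), (30, 11), (31, 12), (32, 13), (33, 14), (34, 15), (35, 16)]

theorem achieved3 : Achieved 4 179 196 3000
    ((([3, 17] : List ℕ).prod ^ 4) ^ 733) 55027 1 :=
  Levels.achieved_full (levels_of_check (mask := 26845978643) (h := 17) (E := cert3) (by norm_num)
      [3, 17]
      (by norm_num) (by decide) (by decide +kernel)) (by norm_num)
    (by decide +kernel) (by decide +kernel)

/-- Residues and ranks modulo 53. -/
def cert4 : List (ℕ × ℕ) :=
    [(1, 1), (2, 7), (8, 0), (9, 6), (13, 5), (16, 2), (20, 1), (21, 7), (27, 0), (28, 6),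
     (35, 3), (40, 3), (42, 2), (43, 7), (47, 2), (50, 4)]

theorem achieved4 : Achieved 4 179 196 3000
    ((([53] : List ℕ).prod ^ 4) ^ 1000) 50826 1 :=
  Levels.achieved_full (levels_of_check (mask := 796115423306755) (h := 8) (E := cert4) (by norm_num)
      [53]
      (by norm_num) (by decide) (by decide +kernel)) (by norm_num)
    (by decide +kernel) (by decide +kernel)

/-- Residues and ranks modulo 37. -/
def cert5 : List (ℕ × ℕ) :=
    [(2, 3), (3, 7), (5, 2), (8, 1), (10, 8), (14, 6), (16, 1), (22, 9), (25, 5), (27, 0),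
     (28, 4), (33, 0), (34, 10)]

theorem achieved5 : Achieved 4 179 196 3000
    ((([37] : List ℕ).prod ^ 4) ^ 867) 50698 1 :=
  Levels.achieved_full (levels_of_check (mask := 25836983939) (h := 11) (E := cert5) (by norm_num)
      [37]
      (by norm_num) (by decide) (by decide +kernel)) (by norm_num)
    (by decide +kernel) (by decide +kernel)

/-- Residues and ranks modulo 16. -/
def cert6 : List (ℕ × ℕ) :=
    [(0, 1), (1, 2), (2, 3), (3, 4), (4, 5), (5, 6), (7, 0), (8, 1), (9, 2), (10, 3), (11, 4),
     (12, 5), (13, 6), (15, 0)]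

theorem achieved6 : Achieved 4 179 196 3000
    ((2 ^ 4) ^ 1068) 32297 1 :=
  Levels.achieved_full (levels_of_check_pow (mask := 3) (h := 7) (E := cert6) (by norm_num)
      2 (by norm_num) (by decide +kernel)) (by norm_num)
    (by decide +kernel) (by decide +kernel)

/-- Residues and ranks modulo 61. -/
def cert7 : List (ℕ × ℕ) :=
    [(17, 0), (19, 2), (25, 0), (26, 2), (27, 4), (33, 1), (34, 3), (35, 6), (41, 3), (42, 6),
     (43, 8), (49, 5), (50, 7), (51, 8), (57, 7), (59, 9)]

theorem achieved7 : Achieved 4 179 196 3000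
    ((([61] : List ℕ).prod ^ 4) ^ 903) 22453 1 :=
  Levels.achieved_full (levels_of_check (mask := 504548311019139587) (h := 10) (E := cert7) (by norm_num)
      [61]
      (by norm_num) (by decide) (by decide +kernel)) (by norm_num)
    (by decide +kernel) (by decide +kernel)

theorem exists_subsets_of_certificates :
    ∃ c : ℝ, 0 < c ∧ ∀ N : ℕ, 1 ≤ N → ∃ A : Finset ℕ, A ⊆ Icc 1 N ∧ PowFreeDiff 4 A ∧
      c * (N : ℝ) ^ (((179 : ℕ) : ℝ) / (196 : ℕ)) ≤ A.card := by
  have hk : 0 < 4 := by norm_num
  have a0 := achieved0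
  have a1 := a0.mul hk achieved1
      (Nat.Coprime.pow 1500 1500 (by norm_num : Nat.Coprime 625 28561))
  have a2 := a1.mul hk achieved2
      (Nat.Coprime.mul_left
      (Nat.Coprime.pow 1500 867 (by norm_num : Nat.Coprime 625 707281))
      (Nat.Coprime.pow 1500 867 (by norm_num : Nat.Coprime 28561 707281)))
  have a3 := a2.mul hk achieved3
      (Nat.Coprime.mul_left
      (Nat.Coprime.mul_left
      (Nat.Coprime.pow 1500 733 (by norm_num : Nat.Coprime 625 6765201))
      (Nat.Coprime.pow 1500 733 (by norm_num : Nat.Coprime 28561 6765201)))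
      (Nat.Coprime.pow 867 733 (by norm_num : Nat.Coprime 707281 6765201)))
  have a4 := a3.mul hk achieved4
      (Nat.Coprime.mul_left
      (Nat.Coprime.mul_left
      (Nat.Coprime.mul_left
      (Nat.Coprime.pow 1500 1000 (by norm_num : Nat.Coprime 625 7890481))
      (Nat.Coprime.pow 1500 1000 (by norm_num : Nat.Coprime 28561 7890481)))
      (Nat.Coprime.pow 867 1000 (by norm_num : Nat.Coprime 707281 7890481)))
      (Nat.Coprime.pow 733 1000 (by norm_num : Nat.Coprime 6765201 7890481)))
  have a5 := a4.mul hk achieved5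
      (Nat.Coprime.mul_left
      (Nat.Coprime.mul_left
      (Nat.Coprime.mul_left
      (Nat.Coprime.mul_left
      (Nat.Coprime.pow 1500 867 (by norm_num : Nat.Coprime 625 1874161))
      (Nat.Coprime.pow 1500 867 (by norm_num : Nat.Coprime 28561 1874161)))
      (Nat.Coprime.pow 867 867 (by norm_num : Nat.Coprime 707281 1874161)))
      (Nat.Coprime.pow 733 867 (by norm_num : Nat.Coprime 6765201 1874161)))
      (Nat.Coprime.pow 1000 867 (by norm_num : Nat.Coprime 7890481 1874161)))
  have a6 := a5.mul hk achieved6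
      (Nat.Coprime.mul_left
      (Nat.Coprime.mul_left
      (Nat.Coprime.mul_left
      (Nat.Coprime.mul_left
      (Nat.Coprime.mul_left
      (Nat.Coprime.pow 1500 1068 (by norm_num : Nat.Coprime 625 16))
      (Nat.Coprime.pow 1500 1068 (by norm_num : Nat.Coprime 28561 16)))
      (Nat.Coprime.pow 867 1068 (by norm_num : Nat.Coprime 707281 16)))
      (Nat.Coprime.pow 733 1068 (by norm_num : Nat.Coprime 6765201 16)))
      (Nat.Coprime.pow 1000 1068 (by norm_num : Nat.Coprime 7890481 16)))
      (Nat.Coprime.pow 867 1068 (by norm_num : Nat.Coprime 1874161 16)))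
  have a7 := a6.mul hk achieved7
      (Nat.Coprime.mul_left
      (Nat.Coprime.mul_left
      (Nat.Coprime.mul_left
      (Nat.Coprime.mul_left
      (Nat.Coprime.mul_left
      (Nat.Coprime.mul_left
      (Nat.Coprime.pow 1500 903 (by norm_num : Nat.Coprime 625 13845841))
      (Nat.Coprime.pow 1500 903 (by norm_num : Nat.Coprime 28561 13845841)))
      (Nat.Coprime.pow 867 903 (by norm_num : Nat.Coprime 707281 13845841)))
      (Nat.Coprime.pow 733 903 (by norm_num : Nat.Coprime 6765201 13845841)))
      (Nat.Coprime.pow 1000 903 (by norm_num : Nat.Coprime 7890481 13845841)))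
      (Nat.Coprime.pow 867 903 (by norm_num : Nat.Coprime 1874161 13845841)))
      (Nat.Coprime.pow 1068 903 (by norm_num : Nat.Coprime 16 13845841)))
  exact a7.exists_subsets (by decide +kernel) (by norm_num) (s := 3) (by norm_num)
    (by norm_num)

end Vale.Agent.P042.Power.Quartic
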