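import Vale.Agent.P042.Power.Certificate

/-!
Certificates for differences of `6`-th powers: graded residue sets and their gains.
-/

open Finset

namespace Vale.Agent.P042.Power.Sextic

/-- Residues and ranks modulo 247. -/
def cert0 : List (ℕ × ℕ) :=
    [(0, 1), (2, 0), (3, 1), (8, 1), (11, 1), (22, 2), (25, 2), (31, 0), (36, 2), (42, 2),
     (45, 0), (54, 1), (56, 0), (59, 0), (65, 0), (70, 1), (73, 0), (76, 0), (79, 1), (84, 1),
     (87, 0), (90, 0), (93, 2), (95, 2), (98, 1), (101, 0), (104, 1), (107, 0), (109, 2),
     (112, 1), (115, 1), (118, 2), (120, 1), (126, 1), (129, 2), (140, 1), (143, 2), (146, 2),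
     (149, 0), (151, 2), (154, 2), (160, 0), (163, 0), (171, 1), (174, 0), (183, 0), (188, 1),
     (191, 0), (194, 0), (196, 1), (197, 2), (199, 1), (202, 1), (205, 0), (208, 0), (213, 2),
     (216, 0), (219, 0), (222, 2), (227, 2), (230, 1), (233, 1), (238, 2), (241, 2), (244, 1)]

theorem achieved0 : Achieved 6 214 225 3000
    ((([13, 19] : List ℕ).prod ^ 6) ^ 1892) 172630 1 :=
  Levels.achieved_full (levels_of_check (mask := 55215656593743492005050398149999912257119958333181020965671771737948163) (h := 3) (E := cert0) (by norm_num)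
      [13, 19]
      (by norm_num) (by decide) (by decide +kernel)) (by norm_num)
    (by decide +kernel) (by decide +kernel)

/-- Residues and ranks modulo 7. -/
def cert1 : List (ℕ × ℕ) :=
    [(0, 5), (2, 0), (3, 1), (4, 2), (5, 3), (6, 4)]

theorem achieved1 : Achieved 6 214 225 3000
    ((([7] : List ℕ).prod ^ 6) ^ 1160) 156886 1 :=
  Levels.achieved_full (levels_of_check (mask := 3) (h := 6) (E := cert1) (by norm_num)
      [7]
      (by norm_num) (by decide) (by decide +kernel)) (by norm_num)
    (by decide +kernel) (by decide +kernel)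

/-- Residues and ranks modulo 43. -/
def cert2 : List (ℕ × ℕ) :=
    [(2, 3), (5, 3), (7, 0), (8, 1), (11, 1), (12, 2), (17, 2), (18, 4), (21, 4), (22, 5),
     (24, 2), (27, 2), (28, 5), (30, 0), (31, 3), (36, 0), (41, 2), (42, 5)]

theorem achieved2 : Achieved 6 214 225 3000
    ((([43] : List ℕ).prod ^ 6) ^ 1160) 87530 1 :=
  Levels.achieved_full (levels_of_check (mask := 2233385158675) (h := 6) (E := cert2) (by norm_num)
      [43]
      (by norm_num) (by decide) (by decide +kernel)) (by norm_num)
    (by decide +kernel) (by decide +kernel)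

/-- Residues and ranks modulo 31. -/
def cert3 : List (ℕ × ℕ) :=
    [(1, 6), (2, 8), (7, 0), (8, 2), (11, 1), (12, 3), (13, 6), (14, 8), (17, 7), (20, 4),
     (23, 1), (26, 0), (27, 2), (28, 5), (29, 7)]

theorem achieved3 : Achieved 6 214 225 3000
    ((([31] : List ℕ).prod ^ 6) ^ 946) 86401 1 :=
  Levels.achieved_full (levels_of_check (mask := 65815) (h := 9) (E := cert3) (by norm_num)
      [31]
      (by norm_num) (by decide) (by decide +kernel)) (by norm_num)
    (by decide +kernel) (by decide +kernel)

/-- Residues and ranks modulo 79. -/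
def cert4 : List (ℕ × ℕ) :=
    [(2, 12), (13, 12), (15, 5), (16, 7), (18, 0), (19, 10), (22, 3), (23, 13), (25, 8),
     (26, 10), (28, 1), (39, 1), (42, 0), (46, 9), (47, 11), (49, 2), (50, 3), (52, 1),
     (58, 7), (60, 5), (68, 12), (70, 6), (71, 11), (73, 3), (74, 4), (78, 13)]

theorem achieved4 : Achieved 6 214 225 3000
    ((([79] : List ℕ).prod ^ 6) ^ 787) 43519 1 :=
  Levels.achieved_full (levels_of_check (mask := 207530445072488465667) (h := 14) (E := cert4) (by norm_num)
      [79]
      (by norm_num) (by decide) (by decide +kernel)) (by norm_num)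
    (by decide +kernel) (by decide +kernel)

/-- Residues and ranks modulo 67. -/
def cert5 : List (ℕ × ℕ) :=
    [(3, 4), (7, 11), (9, 9), (11, 1), (15, 0), (17, 6), (19, 0), (25, 5), (26, 7), (30, 1),
     (32, 12), (36, 2), (37, 4), (43, 9), (45, 3), (47, 13), (49, 10), (51, 8), (53, 0),
     (55, 2), (59, 5), (65, 10), (66, 13)]

theorem achieved5 : Achieved 6 214 225 3000
    ((([67] : List ℕ).prod ^ 6) ^ 787) 41941 1 :=
  Levels.achieved_full (levels_of_check (mask := 23634891944006566403) (h := 14) (E := cert5) (by norm_num)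
      [67]
      (by norm_num) (by decide) (by decide +kernel)) (by norm_num)
    (by decide +kernel) (by decide +kernel)

/-- Residues and ranks modulo 103. -/
def cert6 : List (ℕ × ℕ) :=
    [(1, 13), (4, 4), (6, 9), (11, 7), (13, 5), (16, 2), (18, 7), (21, 6), (28, 0), (29, 12),
     (34, 11), (36, 11), (39, 10), (46, 3), (54, 13), (56, 0), (58, 1), (60, 4), (64, 12),
     (69, 12), (71, 7), (74, 6), (75, 8), (76, 9), (79, 8), (81, 6), (86, 3), (91, 1),
     (92, 13), (96, 1)]

theorem achieved6 : Achieved 6 214 225 3000
    ((([103] : List ℕ).prod ^ 6) ^ 787) 32185 1 :=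
  Levels.achieved_full (levels_of_check (mask := 1277557223231831252448825074435) (h := 14) (E := cert6) (by norm_num)
      [103]
      (by norm_num) (by decide) (by decide +kernel)) (by norm_num)
    (by decide +kernel) (by decide +kernel)

/-- Residues and ranks modulo 127. -/
def cert7 : List (ℕ × ℕ) :=
    [(3, 0), (4, 2), (6, 6), (7, 8), (16, 0), (17, 1), (18, 2), (19, 6), (28, 1), (29, 4),
     (34, 3), (35, 7), (40, 2), (41, 7), (46, 2), (47, 5), (52, 1), (53, 8), (58, 0), (59, 5),
     (64, 4), (65, 7), (74, 2), (75, 6), (76, 7), (77, 8), (86, 0), (87, 4), (89, 6), (90, 8),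
     (104, 3), (110, 4), (116, 5)]

theorem achieved7 : Achieved 6 214 225 3000
    ((([127] : List ℕ).prod ^ 6) ^ 946) 22503 1 :=
  Levels.achieved_full (levels_of_check (mask := 5483229029502075574148299784257601815) (h := 9) (E := cert7) (by norm_num)
      [127]
      (by norm_num) (by decide) (by decide +kernel)) (by norm_num)
    (by decide +kernel) (by decide +kernel)

theorem exists_subsets_of_certificates :
    ∃ c : ℝ, 0 < c ∧ ∀ N : ℕ, 1 ≤ N → ∃ A : Finset ℕ, A ⊆ Icc 1 N ∧ PowFreeDiff 6 A ∧
      c * (N : ℝ) ^ (((214 : ℕ) : ℝ) / (225 : ℕ)) ≤ A.card := by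
  have hk : 0 < 6 := by norm_num
  have a0 := achieved0
  have a1 := a0.mul hk achieved1
      (Nat.Coprime.pow 1892 1160 (by norm_num : Nat.Coprime 227081481823729 117649))
  have a2 := a1.mul hk achieved2
      (Nat.Coprime.mul_left
      (Nat.Coprime.pow 1892 1160 (by norm_num : Nat.Coprime 227081481823729 6321363049))
      (Nat.Coprime.pow 1160 1160 (by norm_num : Nat.Coprime 117649 6321363049)))
  have a3 := a2.mul hk achieved3
      (Nat.Coprime.mul_left
      (Nat.Coprime.mul_left
      (Nat.Coprime.pow 1892 946 (by norm_num : Nat.Coprime 227081481823729 887503681))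
      (Nat.Coprime.pow 1160 946 (by norm_num : Nat.Coprime 117649 887503681)))
      (Nat.Coprime.pow 1160 946 (by norm_num : Nat.Coprime 6321363049 887503681)))
  have a4 := a3.mul hk achieved4
      (Nat.Coprime.mul_left
      (Nat.Coprime.mul_left
      (Nat.Coprime.mul_left
      (Nat.Coprime.pow 1892 787 (by norm_num : Nat.Coprime 227081481823729 243087455521))
      (Nat.Coprime.pow 1160 787 (by norm_num : Nat.Coprime 117649 243087455521)))
      (Nat.Coprime.pow 1160 787 (by norm_num : Nat.Coprime 6321363049 243087455521)))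
      (Nat.Coprime.pow 946 787 (by norm_num : Nat.Coprime 887503681 243087455521)))
  have a5 := a4.mul hk achieved5
      (Nat.Coprime.mul_left
      (Nat.Coprime.mul_left
      (Nat.Coprime.mul_left
      (Nat.Coprime.mul_left
      (Nat.Coprime.pow 1892 787 (by norm_num : Nat.Coprime 227081481823729 90458382169))
      (Nat.Coprime.pow 1160 787 (by norm_num : Nat.Coprime 117649 90458382169)))
      (Nat.Coprime.pow 1160 787 (by norm_num : Nat.Coprime 6321363049 90458382169)))
      (Nat.Coprime.pow 946 787 (by norm_num : Nat.Coprime 887503681 90458382169)))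
      (Nat.Coprime.pow 787 787 (by norm_num : Nat.Coprime 243087455521 90458382169)))
  have a6 := a5.mul hk achieved6
      (Nat.Coprime.mul_left
      (Nat.Coprime.mul_left
      (Nat.Coprime.mul_left
      (Nat.Coprime.mul_left
      (Nat.Coprime.mul_left
      (Nat.Coprime.pow 1892 787 (by norm_num : Nat.Coprime 227081481823729 1194052296529))
      (Nat.Coprime.pow 1160 787 (by norm_num : Nat.Coprime 117649 1194052296529)))
      (Nat.Coprime.pow 1160 787 (by norm_num : Nat.Coprime 6321363049 1194052296529)))
      (Nat.Coprime.pow 946 787 (by norm_num : Nat.Coprime 887503681 1194052296529)))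
      (Nat.Coprime.pow 787 787 (by norm_num : Nat.Coprime 243087455521 1194052296529)))
      (Nat.Coprime.pow 787 787 (by norm_num : Nat.Coprime 90458382169 1194052296529)))
  have a7 := a6.mul hk achieved7
      (Nat.Coprime.mul_left
      (Nat.Coprime.mul_left
      (Nat.Coprime.mul_left
      (Nat.Coprime.mul_left
      (Nat.Coprime.mul_left
      (Nat.Coprime.mul_left
      (Nat.Coprime.pow 1892 946 (by norm_num : Nat.Coprime 227081481823729 4195872914689))
      (Nat.Coprime.pow 1160 946 (by norm_num : Nat.Coprime 117649 4195872914689)))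
      (Nat.Coprime.pow 1160 946 (by norm_num : Nat.Coprime 6321363049 4195872914689)))
      (Nat.Coprime.pow 946 946 (by norm_num : Nat.Coprime 887503681 4195872914689)))
      (Nat.Coprime.pow 787 946 (by norm_num : Nat.Coprime 243087455521 4195872914689)))
      (Nat.Coprime.pow 787 946 (by norm_num : Nat.Coprime 90458382169 4195872914689)))
      (Nat.Coprime.pow 787 946 (by norm_num : Nat.Coprime 1194052296529 4195872914689)))
  exact a7.exists_subsets (by decide +kernel) (by norm_num) (s := 3) (by norm_num)
    (by norm_num)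

end Vale.Agent.P042.Power.Sextic
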