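import Vale.Agent.P042.Power.Lex

/-!
Typical rank sequences.

In a lexicographic power one may keep only the elements whose rank sequence uses rank `i` exactly
`c i` times.  Then the number of ranks is a multinomial coefficient `m` while the number of
elements is `m * ∏ i, n i ^ c i`.
-/

open Finset

namespace Vale.Agent.P042.Power

variable {k : ℕ}

lemma powGraded_sum {M₁ M₂ h : ℕ} {n T H : ℕ → ℕ} (hB : Levels k M₁ h n) (hh : 0 < h)
    (hF : ∀ i < h, PowGraded k M₂ (T i) (H i)) :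
    PowGraded k (M₁ * M₂) (∑ i ∈ range h, n i * T i) (∑ i ∈ range h, H i) := by
  obtain ⟨N₁, hN₁, rfl, hR₁, S₁, r₁, hS₁, hr₁, hn⟩ := hB
  obtain ⟨N₂, hN₂, rfl, hR₂, -⟩ := hF 0 hh
  have hF' : ∀ i, ∃ (S : Finset ℕ) (r : ℕ → ℕ), i < h →
      Graded k (N₂ ^ k) S r ∧ T i ≤ S.card ∧ ∀ a ∈ S, r a < H i := by
    intro i
    by_cases hi : i < h
    · obtain ⟨N, -, -, -, S, r, hS⟩ := hF i hi
      exact ⟨S, r, fun _ => hS⟩
    · exact ⟨∅, fun _ => 0, fun hc => absurd hc hi⟩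
  choose S r hSr using hF'
  set M := N₁ ^ k with hM
  have hM0 : 0 < M := Nat.pow_pos hN₁
  refine ⟨N₁ * N₂, Nat.mul_pos hN₁ hN₂, (mul_pow N₁ N₂ k).symm, fun x hx => ?_,
    (S₁.sigma fun a => S (r₁ a)).image (fun p => p.1 + M * p.2),
    fun x => (∑ j ∈ range (r₁ (x % M)), H j) + r (r₁ (x % M)) (x / M), ⟨?_, ?_⟩, ?_, ?_⟩
  · obtain ⟨t, rfl⟩ := hR₁ x ((Dvd.intro _ rfl).trans hx)
    refine Nat.mul_dvd_mul_left N₁ (hR₂ t ?_)
    rw [mul_pow, ← hM] at hx
    exact (Nat.mul_dvd_mul_iff_left hM0).1 hx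
  · simp only [mem_image, mem_sigma]
    rintro _ ⟨⟨a, z⟩, ⟨ha, hz⟩, rfl⟩
    have := hS₁.1 a ha
    have := (hSr _ (hr₁ a ha)).1.1 z hz
    simp only
    nlinarith
  · simp only [mem_image, mem_sigma]
    rintro _ ⟨⟨a, y⟩, ⟨ha, hy⟩, rfl⟩ _ ⟨⟨b, z⟩, ⟨hb, hz⟩, rfl⟩ hne ⟨x, hx⟩
    simp only at hne hx ha hb hy hz
    simp only [Nat.add_mul_mod_self_left, Nat.mod_eq_of_lt (hS₁.1 a ha),
      Nat.mod_eq_of_lt (hS₁.1 b hb), Nat.add_mul_div_left _ _ hM0,
      Nat.div_eq_of_lt (hS₁.1 a ha), Nat.div_eq_of_lt (hS₁.1 b hb), zero_add]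
    by_cases hab : a = b
    · subst hab
      have h1 : M * y + x ^ k ≡ M * z [MOD M * (N₂ ^ k)] := by
        rw [add_assoc] at hx
        exact Nat.ModEq.add_left_cancel' a hx
      obtain ⟨t, rfl⟩ : N₁ ∣ x := by
        refine hR₁ x ?_
        have h3 := h1.of_mul_right (N₂ ^ k)
        rw [Nat.ModEq, Nat.mul_add_mod, Nat.mul_mod_right] at h3
        exact Nat.dvd_of_mod_eq_zero h3
      have h4 : y + t ^ k ≡ z [MOD N₂ ^ k] := by
        refine Nat.ModEq.mul_left_cancel' hM0.ne' ?_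
        rw [show M * (y + t ^ k) = M * y + (N₁ * t) ^ k by rw [hM, mul_pow, mul_add]]
        exact h1
      have hyz : y ≠ z := fun e => hne (by rw [e])
      exact Nat.add_lt_add_left ((hSr _ (hr₁ a ha)).1.2 y hy z hz hyz ⟨t, h4⟩) _
    · have h3 := hx.of_mul_right (N₂ ^ k)
      have e : a + M * y + x ^ k = a + x ^ k + M * y := by ring
      rw [Nat.ModEq, e, Nat.add_mul_mod_self_left, Nat.add_mul_mod_self_left] at h3
      have h5 := hS₁.2 a ha b hb hab ⟨x, h3⟩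
      have h6 := (hSr _ (hr₁ a ha)).2.2 y hy
      have h7 : ∑ j ∈ range (r₁ a + 1), H j ≤ ∑ j ∈ range (r₁ b), H j :=
        sum_le_sum_of_subset (range_mono h5)
      rw [sum_range_succ] at h7
      omega
  · rw [card_image_of_injOn, card_sigma]
    · rw [← sum_fiberwise_of_maps_to (t := range h) (g := r₁)
        (fun a ha => mem_range.2 (hr₁ a ha))]
      refine sum_le_sum fun i hi => ?_
      rw [sum_congr rfl (g := fun _ => (S i).card) fun a ha => by rw [(mem_filter.1 ha).2],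
        sum_const, smul_eq_mul]
      exact Nat.mul_le_mul (hn i (mem_range.1 hi)) (hSr i (mem_range.1 hi)).2.1
    · rintro ⟨a, y⟩ hp ⟨b, z⟩ hq he
      simp only [coe_sigma, Set.mem_sigma_iff, mem_coe] at hp hq
      obtain ⟨rfl, rfl⟩ := digits_unique (hS₁.1 a hp.1) (hS₁.1 b hq.1) he
      rfl
  · simp only [mem_image, mem_sigma]
    rintro _ ⟨⟨a, y⟩, ⟨ha, hy⟩, rfl⟩
    simp only [Nat.add_mul_mod_self_left, Nat.mod_eq_of_lt (hS₁.1 a ha),
      Nat.add_mul_div_left _ _ hM0, Nat.div_eq_of_lt (hS₁.1 a ha), zero_add]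
    have h6 := (hSr _ (hr₁ a ha)).2.2 y hy
    have h7 : ∑ j ∈ range (r₁ a + 1), H j ≤ ∑ j ∈ range h, H j :=
      sum_le_sum_of_subset (range_mono (hr₁ a ha))
    rw [sum_range_succ] at h7
    omega

lemma PowGraded.empty {M T H : ℕ} (h : PowGraded k M T H) : PowGraded k M 0 0 := by
  obtain ⟨N, hN, rfl, hR, -⟩ := h
  exact ⟨N, hN, rfl, hR, ∅, fun _ => 0, ⟨by simp, by simp⟩, by simp, by simp⟩

lemma Levels.powGraded {M h : ℕ} {n : ℕ → ℕ} (hB : Levels k M h n) : PowGraded k M 0 0 := by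
  obtain ⟨N, hN, rfl, hR, -⟩ := hB
  exact ⟨N, hN, rfl, hR, ∅, fun _ => 0, ⟨by simp, by simp⟩, by simp, by simp⟩

/-- Keep the rank sequences with `c i` occurrences of rank `i`. -/
theorem Levels.typical {M h : ℕ} {n : ℕ → ℕ} (hB : Levels k M h n) (hh : 0 < h) :
    ∀ (L : ℕ) (c : ℕ → ℕ), ∑ i ∈ range h, c i = L →
      ∃ m, m * ∏ i ∈ range h, (c i).factorial = L.factorial ∧
        PowGraded k (M ^ L) (m * ∏ i ∈ range h, n i ^ c i) m
  | 0, c, hc => by
    have h0 : ∀ i ∈ range h, c i = 0 := fun i hi => (sum_eq_zero_iff.1 hc) i hi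
    refine ⟨1, ?_, ?_⟩
    · rw [prod_eq_one fun i hi => by rw [h0 i hi]; rfl]
      rfl
    · rw [prod_eq_one fun i hi => by rw [h0 i hi, pow_zero]]
      exact PowGraded.one
  | L + 1, c, hc => by
    set c' : ℕ → ℕ → ℕ := fun i => Function.update c i (c i - 1) with hc'
    have hpos : ∀ i, ∃ m, i < h → 0 < c i → m * ∏ j ∈ range h, (c' i j).factorial = L.factorial ∧
        PowGraded k (M ^ L) (m * ∏ j ∈ range h, n j ^ c' i j) m := by
      intro i
      by_cases hi : i < h ∧ 0 < c i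
      · have hsum : ∑ j ∈ range h, c' i j = L := by
          rw [hc', sum_update_of_mem (mem_range.2 hi.1)]
          have := sum_eq_sum_sdiff_singleton_add (mem_range.2 hi.1) c
          omega
        obtain ⟨m, hm⟩ := hB.typical hh L (c' i) hsum
        exact ⟨m, fun _ _ => hm⟩
      · exact ⟨0, fun h1 h2 => absurd ⟨h1, h2⟩ hi⟩
    choose m hm using hpos
    have hfac : ∀ i < h, 0 < c i →
        c i * ∏ j ∈ range h, (c' i j).factorial = ∏ j ∈ range h, (c j).factorial := by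
      intro i hi hci
      simp only [hc']
      rw [← mul_prod_erase _ _ (mem_range.2 hi), ← mul_prod_erase _ _ (mem_range.2 hi),
        Function.update_self, ← mul_assoc, Nat.mul_factorial_pred hci.ne']
      congr 1
      exact prod_congr rfl fun j hj => by rw [Function.update_of_ne (mem_erase.1 hj).1]
    have hpow : ∀ i < h, 0 < c i →
        n i * ∏ j ∈ range h, n j ^ c' i j = ∏ j ∈ range h, n j ^ c j := by
      intro i hi hci
      simp only [hc']
      rw [← mul_prod_erase _ _ (mem_range.2 hi), ← mul_prod_erase _ _ (mem_range.2 hi),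
        Function.update_self, ← mul_assoc, ← pow_succ', Nat.sub_add_cancel hci]
      congr 1
      exact prod_congr rfl fun j hj => by rw [Function.update_of_ne (mem_erase.1 hj).1]
    set m' : ℕ → ℕ := fun i => if c i = 0 then 0 else m i with hm'
    refine ⟨∑ i ∈ range h, m' i, ?_, ?_⟩
    · rw [sum_mul, Nat.factorial_succ, ← hc, sum_mul]
      refine sum_congr rfl fun i hi => ?_
      rcases Nat.eq_zero_or_pos (c i) with h0 | hp
      · simp [hm', h0]
      · simp only [hm', if_neg hp.ne']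
        rw [← hfac i (mem_range.1 hi) hp, mul_left_comm,
          (hm i (mem_range.1 hi) hp).1]
    · have hz : PowGraded k (M ^ L) 0 0 := by
        have h0 := hB.powGraded.pow L
        exact h0.empty
      set T' : ℕ → ℕ := fun i => m' i * ∏ j ∈ range h, n j ^ c' i j with hT'
      have hF : ∀ i < h, PowGraded k (M ^ L) (T' i) (m' i) := by
        intro i hi
        rcases Nat.eq_zero_or_pos (c i) with h0 | hp
        · simpa [hT', hm', h0] using hz
        · simpa [hT', hm', hp.ne'] using (hm i hi hp).2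
      have e : ∑ i ∈ range h, n i * T' i = (∑ i ∈ range h, m' i) * ∏ j ∈ range h, n j ^ c j := by
        rw [sum_mul]
        refine sum_congr rfl fun i hi => ?_
        rcases Nat.eq_zero_or_pos (c i) with h0 | hp
        · simp [hT', hm', h0]
        · simp only [hT']
          rw [mul_left_comm, hpow i (mem_range.1 hi) hp]
      have := powGraded_sum hB hh hF
      rw [e, ← pow_succ'] at this
      exact this

/-- There is a graded set modulo `M` with gain `2 ^ e` and at most `K * 2 ^ C` ranks. -/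
def Achieved (k P Q C M e K : ℕ) : Prop :=
  ∃ T H : ℕ, Gain k P Q M T H e ∧ 0 < H ∧ H ≤ K * 2 ^ C

theorem Levels.achieved {M h : ℕ} {n : ℕ → ℕ} (hB : Levels k M h n) (hh : 0 < h)
    {P Q C e L : ℕ} (c : ℕ → ℕ) (hc : ∑ i ∈ range h, c i = L)
    (hC : L.factorial ≤ 2 ^ C * ∏ i ∈ range h, (c i).factorial)
    (he : M ^ (L * P) * 2 ^ e * (∏ i ∈ range h, (c i).factorial) ^ Q ≤
      (L.factorial * ∏ i ∈ range h, n i ^ c i) ^ Q) :
    Achieved k P Q C (M ^ L) e 1 := by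
  obtain ⟨m, hm, hS⟩ := hB.typical hh L c hc
  have hf : 0 < ∏ i ∈ range h, (c i).factorial := prod_pos fun i _ => Nat.factorial_pos _
  refine ⟨_, m, ⟨hS, ?_⟩, ?_, ?_⟩
  · refine Nat.le_of_mul_le_mul_right ?_ (Nat.pow_pos (n := Q) hf)
    rw [← pow_mul, ← mul_pow (m * _), mul_right_comm m, hm]
    exact he
  · rcases Nat.eq_zero_or_pos m with h0 | h0
    · have := Nat.factorial_pos L
      simp [h0] at hm
      omega
    · exact h0
  · rw [one_mul]
    exact Nat.le_of_mul_le_mul_right (hm ▸ hC) hf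

/-- Keep all rank sequences. -/
theorem Levels.achieved_full {M h : ℕ} {n : ℕ → ℕ} (hB : Levels k M h n) (hh : 0 < h)
    {P Q C e L : ℕ} (hC : h ^ L ≤ 2 ^ C)
    (he : M ^ (L * P) * 2 ^ e ≤ (∑ i ∈ range h, n i) ^ (L * Q)) :
    Achieved k P Q C (M ^ L) e 1 := by
  obtain ⟨N, hN, rfl, hR, S, r, hS, hr, hn⟩ := hB
  have hT : ∑ i ∈ range h, n i ≤ S.card := by
    rw [card_eq_sum_card_fiberwise (f := r) (t := range h) (fun a ha => by
      simpa using hr a ha)]
    exact sum_le_sum fun i hi => hn i (mem_range.1 hi)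
  have hSG : PowGraded k (N ^ k) (∑ i ∈ range h, n i) h := ⟨N, hN, rfl, hR, S, r, hS, hT, hr⟩
  refine ⟨_, _, ⟨hSG.pow L, ?_⟩, Nat.pow_pos hh, by rwa [one_mul]⟩
  simpa only [← pow_mul, mul_assoc] using he

lemma Achieved.mul (hk : 0 < k) {P Q C M₁ e₁ K₁ M₂ e₂ K₂ : ℕ} (h₁ : Achieved k P Q C M₁ e₁ K₁)
    (h₂ : Achieved k P Q C M₂ e₂ K₂) (h : M₁.Coprime M₂) :
    Achieved k P Q C (M₁ * M₂) (e₁ + e₂) (K₁ + K₂) := by
  obtain ⟨T₁, H₁, g₁, p₁, b₁⟩ := h₁
  obtain ⟨T₂, H₂, g₂, p₂, b₂⟩ := h₂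
  exact ⟨_, _, g₁.mul hk g₂ h, Nat.add_pos_left p₁ _, by rw [add_mul]; exact Nat.add_le_add b₁ b₂⟩

theorem Achieved.exists_subsets {P Q C M e K : ℕ} (h : Achieved k P Q C M e K) (hM : 1 < M)
    (hQ : 0 < Q) {s : ℕ} (hK : K ≤ 2 ^ s) (he : P * (s + C) ≤ e) :
    ∃ c : ℝ, 0 < c ∧ ∀ N : ℕ, 1 ≤ N → ∃ A : Finset ℕ, A ⊆ Icc 1 N ∧ PowFreeDiff k A ∧
      c * (N : ℝ) ^ ((P : ℝ) / Q) ≤ A.card := by
  obtain ⟨T, H, g, hH, b⟩ := h
  refine g.exists_subsets hM hH hQ (C := s + C) (b.trans ?_) he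
  rw [pow_add]
  exact Nat.mul_le_mul_right _ hK

end Vale.Agent.P042.Power
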